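import Vale.Agent.P262.Main
import Vale.Agent.P262.Lower

/-!
P262: the order of growth of the Euclidean Steinitz constant (Steinitz-Bergström conjecture).
-/

namespace Vale.Agent.Results.P262.SteinitzBergstrom

/-- The Euclidean Steinitz constant is of order the square root of the dimension: every zero-sum
family in the unit ball can be ordered so that all partial sums have norm `O(√d)`, and in each
dimension some family cannot be ordered better than a constant times `√d`. -/
theorem result :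
    (∃ C : ℝ, ∀ (d n : ℕ) (v : Fin n → EuclideanSpace ℝ (Fin d)),
      (∀ i, ‖v i‖ ≤ 1) → ∑ i, v i = 0 → ∃ π : Equiv.Perm (Fin n), ∀ k : ℕ,
        ‖∑ i ∈ Finset.univ.filter (fun i : Fin n => (i : ℕ) < k), v (π i)‖
          ≤ C * Real.sqrt d) ∧
    (∃ c : ℝ, 0 < c ∧ ∀ d : ℕ, 1 ≤ d →
      ∃ (n : ℕ) (v : Fin n → EuclideanSpace ℝ (Fin d)), (∀ i, ‖v i‖ ≤ 1) ∧ ∑ i, v i = 0 ∧
        ∀ π : Equiv.Perm (Fin n), ∃ k : ℕ, c * Real.sqrt d
          ≤ ‖∑ i ∈ Finset.univ.filter (fun i : Fin n => (i : ℕ) < k), v (π i)‖) :=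
  ⟨Vale.Agent.P262.steinitz_euclidean,
    1 / 4, by norm_num, Vale.Agent.P262.steinitz_lower_bound⟩

end Vale.Agent.Results.P262.SteinitzBergstrom
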